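import Vale.Agent.P042.H685.H2Thm
import Vale.Agent.P042.H104.PHo

/-! `HAll`: the law-level data of Theorem H (`H2Hyp`, 685) give the hypothesis `PH` of the mixed
scales (161) for every set `Hi` of free high sites; the pinned sets are arbitrary. -/

set_option linter.unusedSectionVars false
set_option linter.unusedDecidableInType false

namespace Vale.Agent.P042.H288

open Finset Vale.Agent.P042.H779 Vale.Agent.P042.H779.Ab Vale.Agent.P042.H685

variable {ι : Type*} [Fintype ι] [DecidableEq ι] {V : ι → Type*} [∀ i, Fintype (V i)]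
  [∀ i, DecidableEq (V i)] {u p : ∀ i, V i → ℝ} {μ : (∀ i, V i) → ℝ}
  {rt : ι → ℝ} {a : ℝ} {c : ι → ℝ} {d0 : ℕ} {δ wm : ℝ}
  {I : Finset ι} {l0 cm rm ξ K1 : ℝ} {dd : ℕ} {D : ℝ}

/-- the constant in front: `(2 e^3 e^a)^2` -/
noncomputable def KH (a : ℝ) : ℝ := (2 * Real.exp 3 * Real.exp a) ^ 2

/-- the energy per free leg: `1440 G R² P^(1-1/(12 C1))` -/
noncomputable def XH (G R P C1 : ℝ) : ℝ := 1440 * G * R ^ 2 * P ^ (1 - 1 / (12 * C1))

lemma one_le_KH {a : ℝ} (ha : 0 ≤ a) : 1 ≤ KH a := by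
  unfold KH
  have h1 := Real.one_le_exp ha
  have h2 := Real.one_le_exp (show (0 : ℝ) ≤ 3 by norm_num)
  have h3 : (1 : ℝ) ≤ 2 * Real.exp 3 * Real.exp a := by nlinarith
  exact one_le_pow₀ h3

/-- the exponent form of `KH` : `KH a ≤ exp (2 a + 8)` -/
lemma KH_le (a : ℝ) : KH a ≤ Real.exp (2 * a + 8) := by
  unfold KH
  have h2 : (2 : ℝ) ≤ Real.exp 1 := by
    have := Real.add_one_le_exp (1 : ℝ); linarith
  have h3 : 2 * Real.exp 3 * Real.exp a ≤ Real.exp (a + 4) := by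
    calc 2 * Real.exp 3 * Real.exp a ≤ Real.exp 1 * Real.exp 3 * Real.exp a := by gcongr
      _ = Real.exp (a + 4) := by rw [← Real.exp_add, ← Real.exp_add]; ring_nf
  calc (2 * Real.exp 3 * Real.exp a) ^ 2 ≤ Real.exp (a + 4) ^ 2 := by gcongr
    _ = Real.exp (2 * a + 8) := by rw [← Real.exp_nat_mul]; push_cast; ring_nf

/-- **`HAll`.**  Theorem H in the form consumed by the mixed scales: all pinned sets `A`, all
orders `e` with `|A| + e ≤ b0`, the free legs in `Hi`. -/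
theorem hall (H : H2Hyp u p μ rt a c d0 δ wm I l0 cm rm ξ K1 dd D) {Hi : Finset ι}
    (hHi : Hi ⊆ I) {b0 s1 d l q : ℕ} (hl : 1 ≤ l)
    (hln : Real.log (4 * I.card) ≤ l) (hd : 4 * s1 * l ≤ d) (hdd : b0 + d ≤ dd)
    (hd0 : b0 + s1 ≤ d0) {D1 : ℝ} (hD1 : D + b0 * Real.log (1 / wm) ≤ D1)
    (hq : Even q) (hqe : q * b0 ≤ s1)
    {P R G C1 : ℝ} (hP : 1 ≤ P) (hR : 2 * (Real.exp cm * rm / ξ) ≤ R)
    (hR' : 4 * Real.exp cm / l0 ≤ R)
    (hQ : 2 * (ξ⁻¹ * H956.KL d D1 (Real.exp cm * rm) + K1) ≤ R * P)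
    (hG : 1 ≤ G) (hC : 1 ≤ C1) (hbG : (b0 : ℝ) ≤ G)
    (hlo : Real.log (Fintype.card (Σ i, V i)) ≤ G) (hlk : Real.log (3 * I.card) ≤ G)
    (hOm : (Fintype.card (Σ i, V i) : ℝ) ≤ P ^ (2 * C1)) (hGP : 16 * G ^ 2 ≤ P ^ (2 / 3 : ℝ))
    (hql : P ^ (2 / 3 : ℝ) ≤ 2 * (q : ℝ)) (hqu : 2 * (q : ℝ) ≤ 8 * P ^ (2 / 3 : ℝ)) :
    H161.PH p (H742.gr p μ) Hi (fun i => KH a * Real.exp (2 * c i))
      (KH a * XH G R P C1) b0 := by
  have hwm : 0 ≤ Real.log (1 / wm) := Real.log_nonneg (by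
    rw [le_div_iff₀ H.data.wm_pos, one_mul]; exact H.data.wm_le)
  have hK0 : (1 : ℝ) ≤ 2 * Real.exp 3 := by
    have h2 := Real.one_le_exp (show (0 : ℝ) ≤ 3 by norm_num)
    linarith
  have hX : 0 ≤ XH G R P C1 := by
    unfold XH
    have h1 := Real.rpow_nonneg (by linarith : (0 : ℝ) ≤ P) (1 - 1 / (12 * C1))
    positivity
  have hlog : ∀ (t : ℝ) (_ : 0 < t) (B : ℝ) (_ : 0 ≤ B) (_ : Real.log (t * I.card) ≤ B)
      (J : Finset ι) (_ : J ⊆ I), Real.log (t * J.card) ≤ B := by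
    intro t ht B hB h J hJ
    rcases Nat.eq_zero_or_pos J.card with hJ0 | hJ0
    · rw [hJ0]; simpa using hB
    · refine (Real.log_le_log (by positivity) ?_).trans h
      have : (J.card : ℝ) ≤ I.card := by exact_mod_cast card_le_card hJ
      gcongr
  refine H104.ph_of_WW H.data.ref (K0 := 2 * Real.exp 3) (X := XH G R P C1) H.data.a_nonneg
    H.data.c_nonneg hK0 hX (fun A hA w => gdw_le_cost' H.data (by omega) w) ?_
  intro A e he hAe w
  have hsub : Hi \ A ⊆ I := sdiff_subset.trans hHi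
  have hdis : Disjoint A (Hi \ A) := disjoint_sdiff
  have hAb : (A.card : ℝ) ≤ b0 := by exact_mod_cast (by omega : A.card ≤ b0)
  have heb : (e : ℝ) ≤ b0 := by exact_mod_cast (by omega : e ≤ b0)
  have h1 := (H.mono hsub).energy hdis w (s1 := s1) (d := d) (l := l) hl
    (hlog 4 (by norm_num) l (by positivity) hln _ hsub) hd (by omega) (by omega) (D1 := D1)
    ((add_le_add_right (mul_le_mul_of_nonneg_right hAb hwm) D).trans hD1) (e := e) (q := q) he hq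
    ((Nat.mul_le_mul_left q (by omega)).trans hqe) hP hR hR' hQ hG hC (heb.trans hbG) hlo
    (hlog 3 (by norm_num) G (by linarith) hlk _ hsub) hOm hGP hql hqu
  refine h1.trans (le_of_eq ?_)
  unfold Kp XH
  congr 2
  rw [Real.exp_add]
  ring

end Vale.Agent.P042.H288
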